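import Mathlib
import Vale.Agent.Lib.P339.helper75.Affine

namespace Vale.Agent.Results.P339.AlphabetTwoAffine

open Vale.Agent.Lib.P339.H75

/-- 2-to-1 games with the smallest alphabets (sizes 4 and 2, that is `q = 2`) are systems of
linear equations over the field with two elements.

There are fixed bijections `φ` from the alphabet of size four to pairs of bits and `ψ` from the
alphabet of size two to bits, and fixed functions `L` (a pair of bits) and `C` (a bit) of a map
`π` between the alphabets, such that:

1. for every 2-to-1 map `π` (both fibres have exactly two elements) the pair `L π` is not zero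
   and `π a = b` holds exactly when the bits `(x, y) = φ a` and `z = ψ b` satisfy the one
   equation `(L π).1 * x + (L π).2 * y + z = C π`;
2. for every 2-to-1 game with these alphabets (vertex types `U`, `V`, an index type `E` of
   constraints, `src e`, `tgt e` and `π e` the two vertices and the map of the constraint `e`):
   a labeling `(A, B)` satisfies all constraints exactly when its bits solve the linear system
   with one equation for each constraint, and a labeling satisfying all constraints exists
   exactly when that system has a solution;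
3. for a finite index type `E` and a probability distribution `μ` on it: some labeling satisfies
   constraints of total probability one (the game has value one) exactly when the linear system
   of the constraints of nonzero probability has a solution. -/
theorem result :
    ∃ (φ : Fin 4 → ZMod 2 × ZMod 2) (ψ : Fin 2 → ZMod 2)
      (L : (Fin 4 → Fin 2) → ZMod 2 × ZMod 2) (C : (Fin 4 → Fin 2) → ZMod 2),
      Function.Bijective φ ∧ Function.Bijective ψ ∧
      (∀ π : Fin 4 → Fin 2,
        (∀ b : Fin 2, (Finset.univ.filter (fun a => π a = b)).card = 2) →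
          L π ≠ 0 ∧ ∀ (a : Fin 4) (b : Fin 2),
            (π a = b ↔ (L π).1 * (φ a).1 + (L π).2 * (φ a).2 + ψ b = C π)) ∧
      (∀ (U V E : Type) (src : E → U) (tgt : E → V) (π : E → Fin 4 → Fin 2),
        (∀ (e : E) (b : Fin 2), (Finset.univ.filter (fun a => π e a = b)).card = 2) →
        (∀ (A : U → Fin 4) (B : V → Fin 2),
          (∀ e, π e (A (src e)) = B (tgt e)) ↔
            ∀ e, (L (π e)).1 * (φ (A (src e))).1 + (L (π e)).2 * (φ (A (src e))).2
              + ψ (B (tgt e)) = C (π e)) ∧
        ((∃ (A : U → Fin 4) (B : V → Fin 2), ∀ e, π e (A (src e)) = B (tgt e)) ↔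
          ∃ (x y : U → ZMod 2) (z : V → ZMod 2),
            ∀ e, (L (π e)).1 * x (src e) + (L (π e)).2 * y (src e) + z (tgt e) = C (π e))) ∧
      (∀ (U V E : Type) [Fintype E] (src : E → U) (tgt : E → V) (π : E → Fin 4 → Fin 2)
          (μ : E → ℝ), (∀ e, 0 ≤ μ e) → ∑ e, μ e = 1 →
        (∀ (e : E) (b : Fin 2), (Finset.univ.filter (fun a => π e a = b)).card = 2) →
        ((∃ (A : U → Fin 4) (B : V → Fin 2),
            ∑ e ∈ Finset.univ.filter (fun e => π e (A (src e)) = B (tgt e)), μ e = 1) ↔
          ∃ (x y : U → ZMod 2) (z : V → ZMod 2),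
            ∀ e, μ e ≠ 0 →
              (L (π e)).1 * x (src e) + (L (π e)).2 * y (src e) + z (tgt e) = C (π e))) := by
  refine ⟨phi, psi, Lf, Cf, phi_bij, psi_bij, core, ?_, ?_⟩
  · intro U V E src tgt π h2
    refine ⟨fun A B => ?_, ?_⟩
    · exact forall_congr' (fun e => (core (π e) (h2 e)).2 (A (src e)) (B (tgt e)))
    · have h := game_iff U V E src tgt π h2 (fun _ => True)
      constructor
      · rintro ⟨A, B, hAB⟩
        obtain ⟨x, y, z, hxyz⟩ := h.mp ⟨A, B, fun e _ => hAB e⟩
        exact ⟨x, y, z, fun e => hxyz e trivial⟩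
      · rintro ⟨x, y, z, hxyz⟩
        obtain ⟨A, B, hAB⟩ := h.mpr ⟨x, y, z, fun e _ => hxyz e⟩
        exact ⟨A, B, fun e => hAB e trivial⟩
  · intro U V E _ src tgt π μ h0 h1 h2
    have h := game_iff U V E src tgt π h2 (fun e => μ e ≠ 0)
    constructor
    · rintro ⟨A, B, hAB⟩
      exact h.mp ⟨A, B, (mass_one_iff μ h0 h1 _).mp hAB⟩
    · intro hx
      obtain ⟨A, B, hAB⟩ := h.mpr hx
      exact ⟨A, B, (mass_one_iff μ h0 h1 _).mpr hAB⟩

end Vale.Agent.Results.P339.AlphabetTwoAffine
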